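import Mathlib
import Vale.Agent.P229.Symm

/-!
P229: every smooth surface metric which, in suitable smooth coordinates, has coefficients that
are analytic in one coordinate and smooth in the other one, is locally smoothly realizable in
three-space. No condition is put on the zero set of the curvature.
-/

open Set Metric Filter Complex P229
open scoped Topology ContDiff ComplexConjugate

namespace Vale.Agent.Results.P229.PartiallyAnalytic

theorem result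
    (φ : ℝ × ℝ → ℝ × ℝ) (U₀ : Set (ℝ × ℝ)) (p : ℝ × ℝ) (hU₀ : IsOpen U₀) (hpU : p ∈ U₀)
    (hφ : ContDiffOn ℝ ∞ φ U₀)
    (E F G : ℝ × ℝ → ℝ) (hE : 0 < E (φ p)) (hdet : F (φ p) ^ 2 < E (φ p) * G (φ p))
    (O : Set (ℂ × ℝ)) (hO : IsOpen O) (hpO : (((φ p).1 : ℂ), (φ p).2) ∈ O)
    (Ec Fc Gc : ℂ × ℝ → ℂ)
    (hsmooth : ContDiffOn ℝ ∞ Ec O ∧ ContDiffOn ℝ ∞ Fc O ∧ ContDiffOn ℝ ∞ Gc O)
    (hhol : ∀ q ∈ O, DifferentiableAt ℂ (fun z => Ec (z, q.2)) q.1 ∧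
      DifferentiableAt ℂ (fun z => Fc (z, q.2)) q.1 ∧
      DifferentiableAt ℂ (fun z => Gc (z, q.2)) q.1)
    (hext : ∀ x y : ℝ, ((x : ℂ), y) ∈ O → Ec ((x : ℂ), y) = (E (x, y) : ℂ) ∧
      Fc ((x : ℂ), y) = (F (x, y) : ℂ) ∧ Gc ((x : ℂ), y) = (G (x, y) : ℂ)) :
    ∃ U : Set (ℝ × ℝ), IsOpen U ∧ p ∈ U ∧ U ⊆ U₀ ∧
      ∃ Φ : ℝ × ℝ → EuclideanSpace ℝ (Fin 3), ContDiffOn ℝ ∞ Φ U ∧
        ∀ q ∈ U, ∀ v w : ℝ × ℝ,
          inner ℝ (fderiv ℝ Φ q v) (fderiv ℝ Φ q w) =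
            E (φ q) * ((fderiv ℝ φ q v).1 * (fderiv ℝ φ q w).1) +
            F (φ q) * ((fderiv ℝ φ q v).1 * (fderiv ℝ φ q w).2 +
              (fderiv ℝ φ q v).2 * (fderiv ℝ φ q w).1) +
            G (φ q) * ((fderiv ℝ φ q v).2 * (fderiv ℝ φ q w).2) := by
  have he := ext_funSym hO hsmooth.1 (fun q hq => (hhol q hq).1) (φ p)
  have hf := ext_funSym hO hsmooth.2.1 (fun q hq => (hhol q hq).2.1) (φ p)
  have hg := ext_funSym hO hsmooth.2.2 (fun q hq => (hhol q hq).2.2) (φ p)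
  have hE' : ∀ {x y : ℝ}, ((x : ℂ), y) ∈ domSym O (φ p) →
      funSym Ec (φ p) ((x : ℂ), y) = E (x + (φ p).1, y + (φ p).2) :=
    fun h => funSym_real (fun x y hxy => (hext x y hxy).1) h
  have hF' : ∀ {x y : ℝ}, ((x : ℂ), y) ∈ domSym O (φ p) →
      funSym Fc (φ p) ((x : ℂ), y) = F (x + (φ p).1, y + (φ p).2) :=
    fun h => funSym_real (fun x y hxy => (hext x y hxy).2.1) h
  have hG' : ∀ {x y : ℝ}, ((x : ℂ), y) ∈ domSym O (φ p) →
      funSym Gc (φ p) ((x : ℂ), y) = G (x + (φ p).1, y + (φ p).2) :=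
    fun h => funSym_real (fun x y hxy => (hext x y hxy).2.2) h
  have h0 : (0 : ℂ × ℝ) ∈ domSym O (φ p) := by simpa [domSym] using hpO
  have h0' : (((0 : ℝ) : ℂ), (0 : ℝ)) = (0 : ℂ × ℝ) := by simp
  obtain ⟨ρ, Φ0, hρ, hΦ0, hiso⟩ := realize he hf hg h0
    (e0 := E (φ p)) (f0 := F (φ p)) (g0 := G (φ p))
    (by have := hE' (x := 0) (y := 0) (h0'.symm ▸ h0); rw [h0'] at this; simpa using this)
    (by have := hF' (x := 0) (y := 0) (h0'.symm ▸ h0); rw [h0'] at this; simpa using this)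
    (by have := hG' (x := 0) (y := 0) (h0'.symm ▸ h0); rw [h0'] at this; simpa using this)
    hE hdet
  set τ : ℝ × ℝ → ℝ × ℝ := fun q => φ q - φ p with hτ
  have hτs : ContDiffOn ℝ ∞ τ U₀ := hφ.sub contDiffOn_const
  refine ⟨U₀ ∩ τ ⁻¹' ball 0 ρ, hτs.continuousOn.isOpen_inter_preimage hU₀ isOpen_ball,
    ⟨hpU, by simpa [hτ] using hρ⟩, inter_subset_left, fun q => Φ0 (τ q),
    hΦ0.comp (hτs.mono inter_subset_left) (fun q hq => hq.2), fun q hq v w => ?_⟩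
  obtain ⟨hmem, hformula⟩ := hiso (τ q) hq.2
  have hd0 : DifferentiableAt ℝ Φ0 (τ q) :=
    (hΦ0.contDiffAt (isOpen_ball.mem_nhds hq.2)).differentiableAt (by simp)
  have hdφ : DifferentiableAt ℝ φ q :=
    (hφ.contDiffAt (hU₀.mem_nhds hq.1)).differentiableAt (by simp)
  have hd : HasFDerivAt (fun q => Φ0 (τ q)) ((fderiv ℝ Φ0 (τ q)).comp (fderiv ℝ φ q)) q :=
    hd0.hasFDerivAt.comp q (hdφ.hasFDerivAt.sub_const (φ p))
  rw [hd.fderiv]
  simp only [ContinuousLinearMap.coe_comp, Function.comp_apply, hformula]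
  rw [hE' hmem, hF' hmem, hG' hmem]
  simp [hτ]

end Vale.Agent.Results.P229.PartiallyAnalytic
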